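import Vale.Agent.P262.Main
import Vale.Agent.P262.Node

/-!
P262: the signed-prefix constant satisfies `σ(d) ≤ C √(d log (d+1))`, independently of `N`.
-/

namespace Vale.Agent.Results.P262.SignedPrefixSqrtLog

open Vale.Agent.P262
open scoped BigOperators

/-- Every finite sequence in the Euclidean unit ball of `ℝ^d` has signs for which all prefix sums
have norm at most `C √(d log (d+1))`, with `C` absolute. -/
theorem result :
    ∃ C : ℝ, 0 < C ∧ ∀ d : ℕ, 1 ≤ d →
      ∀ (N : ℕ) (v : Fin N → EuclideanSpace ℝ (Fin d)), (∀ i, ‖v i‖ ≤ 1) →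
        ∃ ε : Fin N → ℝ, (∀ i, ε i = 1 ∨ ε i = -1) ∧
          ∀ k, k ≤ N → ‖∑ i : Fin N with i.val < k, ε i • v i‖
            ≤ C * √((d : ℝ) * Real.log ((d : ℝ) + 1)) := by
  obtain ⟨C, hC, h⟩ := main_of_node (fun d hd v s e hse => rankOf_le v hd hse)
    (fun d hd τ _ hτ1 h1 v hv => nodeP hd hτ1 h1 hv (NR d))
  exact ⟨C, hC, fun d hd => (h d hd).1⟩

end Vale.Agent.Results.P262.SignedPrefixSqrtLog
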