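import Vale.Agent.P262.S2.Main
import Vale.Agent.P262.S2.Step

/-!
P262: the Euclidean Steinitz constant is `O(√d)` (Steinitz–Bergström conjecture).
-/

namespace Vale.Agent.Results.P262.SteinitzSqrt

open scoped BigOperators

/-- Every finite zero-sum family in the Euclidean unit ball of `ℝ^d` can be ordered so that all
partial sums have norm at most `C√d`, with `C` absolute. -/
theorem result :
    ∃ C : ℝ, ∀ (d N : ℕ) (v : Fin N → EuclideanSpace ℝ (Fin d)),
      (∀ i, ‖v i‖ ≤ 1) → ∑ i, v i = 0 →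
        ∃ π : Equiv.Perm (Fin N), ∀ k ≤ N,
          ‖∑ i : Fin N with i.val < k, v (π i)‖ ≤ C * √(d : ℝ) :=
  Vale.Agent.P262.S2.steinitz_of_step Vale.Agent.P262.S2.step_prop

end Vale.Agent.Results.P262.SteinitzSqrt
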